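import Vale.Agent.P022D.L2c.Defs
import Vale.Agent.P022E.CA.BlkDefs

namespace Vale.Agent.P022E.L2c.Out
export Vale.Agent.P022D.L2c.Out (
  mk crd blk cst ev)
end Vale.Agent.P022E.L2c.Out

namespace Vale.Agent.P022E.L2c.Dih0
export Vale.Agent.P022D.L2c.Dih0 (
  dg irr opn ad mk)
end Vale.Agent.P022E.L2c.Dih0

namespace Vale.Agent.P022E.L2c.Dih
export Vale.Agent.P022D.L2c.Dih (
  opV tpow tU mk idx gen sc opU inv odd tV ne nrm toDih0 pow)
end Vale.Agent.P022E.L2c.Dih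

namespace Vale.Agent.P022E.L2c
export Vale.Agent.P022D.L2c (
  IsZ2 LIM tor EXT POL red NI Pt Eg TAN ut NIR GEN cup LOCU SYM0 ODD RANK Cob Qd eps QDA
  out DIH KUM Lift ka ETA Ef HERB up G2 SEC Out SYM2 Xe Hm HYP bil SHELL EUL SYM1 Zad Dih
  th M2 Dih0 OUT Crd)
end Vale.Agent.P022E.L2c

namespace Vale.Agent.P022E.L2c.Lift
export Vale.Agent.P022D.L2c.Lift (
  res opn red det mk)
end Vale.Agent.P022E.L2c.Lift

namespace Vale.Agent.P022E.L2c.Pt
export Vale.Agent.P022D.L2c.Pt (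
  cst var mk)
end Vale.Agent.P022E.L2c.Pt
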