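import Vale.Agent.P022D.L2c.Defs2
import Vale.Agent.P022E.L2c.Defs

namespace Vale.Agent.P022E.L2c.Intg
export Vale.Agent.P022D.L2c.Intg (
  fin hens stab two val arch mk)
end Vale.Agent.P022E.L2c.Intg

namespace Vale.Agent.P022E.L2c
export Vale.Agent.P022D.L2c (
  LOCU1 locu LOCU3 Intg LOCU2)
end Vale.Agent.P022E.L2c
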