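import Vale.Agent.P022D.L2c.Dih
import Vale.Agent.P022E.L2c.Defs

namespace Vale.Agent.P022E.L2c.DihH
export Vale.Agent.P022D.L2c.DihH (
  inU one0 swap mulU two keep ent th_one memU thU outU)
end Vale.Agent.P022E.L2c.DihH

namespace Vale.Agent.P022E.L2c
export Vale.Agent.P022D.L2c (
  ext dih)
end Vale.Agent.P022E.L2c
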