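import Vale.Agent.P022D.L2c.Eta
import Vale.Agent.P022E.L2c.Defs
import Vale.Agent.P022E.L2b.B1

namespace Vale.Agent.P022E.L2c.Eta
export Vale.Agent.P022D.L2c.Eta (
  ram pw comm nodih four fin_ord)
end Vale.Agent.P022E.L2c.Eta

namespace Vale.Agent.P022E.L2c
export Vale.Agent.P022D.L2c (
  eta)
end Vale.Agent.P022E.L2c
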