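import Vale.Agent.P022D.L2c.Glue
import Vale.Agent.P022E.L2c.Defs
import Vale.Agent.P022E.L2b.Defs

namespace Vale.Agent.P022E.L2c.Glue
export Vale.Agent.P022D.L2c.Glue (
  eps_in nb li tn to_ad e00 eps_out na ri cancel pd_mul det_ne pd_tr cj lc_inv of_ad dih0)
end Vale.Agent.P022E.L2c.Glue

namespace Vale.Agent.P022E.L2c
export Vale.Agent.P022D.L2c (
  inp cases)
end Vale.Agent.P022E.L2c
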