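import Vale.Agent.P022D.L2c.Locu1
import Vale.Agent.P022E.L2c.Defs2

namespace Vale.Agent.P022E.L2c.L1
export Vale.Agent.P022D.L2c.L1 (
  mem_tor Ph un finO vl_add un_add zp dec kill vl_inj vl_zero SS tw prodEq Ph_sur vl_zsmul
  ne0 mem_EE vl idx EE two_mem four_mem vl_neg notor Ph_inj uniq vl_ne invm vl_mk mk)
end Vale.Agent.P022E.L2c.L1

namespace Vale.Agent.P022E.L2c
export Vale.Agent.P022D.L2c (
  locu1)
end Vale.Agent.P022E.L2c
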