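import Vale.Agent.P022D.L2c.Locu3
import Vale.Agent.P022E.L2c.Defs2

namespace Vale.Agent.P022E.L2c.Locu3
export Vale.Agent.P022D.L2c.Locu3 (
  rank_la t_eq ev sum_sm co co_sm La l_sm l_eq sm_mem main add_z2 ev_bij pow_mem sm)
end Vale.Agent.P022E.L2c.Locu3

namespace Vale.Agent.P022E.L2c
export Vale.Agent.P022D.L2c (
  locu3)
end Vale.Agent.P022E.L2c
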