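import Vale.Agent.P022D.L2c.Nir
import Vale.Agent.P022E.L2c.Defs
import Vale.Agent.P022E.L2c.Nir0

namespace Vale.Agent.P022E.L2c.Nir
export Vale.Agent.P022D.L2c.Nir (
  ni card_eq)
end Vale.Agent.P022E.L2c.Nir

namespace Vale.Agent.P022E.L2c
export Vale.Agent.P022D.L2c (
  nir)
end Vale.Agent.P022E.L2c
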