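import Vale.Agent.P022D.L2c.Odd0

namespace Vale.Agent.P022E.L2c
end Vale.Agent.P022E.L2c

namespace Vale.Agent.P022E.L2c.Odd
export Vale.Agent.P022D.L2c.Odd (
  core cont_tau cont_out tau alg lc_act tau_val tau_mul)
end Vale.Agent.P022E.L2c.Odd
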