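import Vale.Agent.P022D.L2c.Odd
import Vale.Agent.P022E.L2c.Defs
import Vale.Agent.P022E.L2c.Odd0

namespace Vale.Agent.P022E.L2c
export Vale.Agent.P022D.L2c (
  odd)
end Vale.Agent.P022E.L2c
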