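import Vale.Agent.P022D.L2c.Pol1
import Vale.Agent.P022E.L2c.Defs

namespace Vale.Agent.P022E.L2c
end Vale.Agent.P022E.L2c

namespace Vale.Agent.P022E.L2c.PolP
export Vale.Agent.P022D.L2c.PolP (
  cor z2 lc_sum cor_cob e_tau rep1 e_rep odd' corid rep tau tau_cont hm_tau rep0 hm_one
  hm_inv tau_mul rs sum2 cor_sub sum2' proj)
end Vale.Agent.P022E.L2c.PolP
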