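import Vale.Agent.P022D.L2c.Pol
import Vale.Agent.P022E.L2c.Pol1

namespace Vale.Agent.P022E.L2c.PolP
export Vale.Agent.P022D.L2c.PolP (
  inv_ent polar in0 act_in act act_ent act_apply BB_act corz th_V BB1 BB act_one eps_eq
  exists_e act_out lc_act lc_rb BB0 act_off exists_x out0 act_mul act_trace th_mul)
end Vale.Agent.P022E.L2c.PolP

namespace Vale.Agent.P022E.L2c
export Vale.Agent.P022D.L2c (
  pol)
end Vale.Agent.P022E.L2c

namespace Vale.Agent.P022E.L2c.PolP.BB
export Vale.Agent.P022D.L2c.PolP.BB (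
  up')
end Vale.Agent.P022E.L2c.PolP.BB
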