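import Vale.Agent.P022D.L2c.Sym
import Vale.Agent.P022E.L2c.Defs

namespace Vale.Agent.P022E.L2c.Sym
export Vale.Agent.P022D.L2c.Sym (
  cup_ne tr ex_bas symm aut cob_map lin cj cj_cj ex_fun cob_up hm_map cj_cont cob_comp
  up_sub agree cj_in cup_add hm_comp ind cj_mul z2 cj_one)
end Vale.Agent.P022E.L2c.Sym

namespace Vale.Agent.P022E.L2c
export Vale.Agent.P022D.L2c (
  sym0 sym1 sym2)
end Vale.Agent.P022E.L2c
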