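import Vale.Agent.P022D.L2c.Tan
import Vale.Agent.P022E.L2c.Defs

namespace Vale.Agent.P022E.L2c
export Vale.Agent.P022D.L2c (
  inv_ent tan zinj zcj cj_V cj_U pick tr11 th_V th_mul z00 pickS cj_N lc_ent z01 pickH)
end Vale.Agent.P022E.L2c
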