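import Vale.Agent.P022D.L2c.All0
import Vale.Agent.P022E.L2c.Glue
import Vale.Agent.P022E.L2c.Kum
import Vale.Agent.P022E.L2c.Defs2
import Vale.Agent.P022E.L2c.Dih
import Vale.Agent.P022E.L2c.Eta
import Vale.Agent.P022E.L2c.Locu1
import Vale.Agent.P022E.L2c.Locu2
import Vale.Agent.P022E.L2c.Locu3
import Vale.Agent.P022E.L2c.Nir
import Vale.Agent.P022E.L2c.Odd
import Vale.Agent.P022E.L2c.Pol
import Vale.Agent.P022E.L2c.Sym
import Vale.Agent.P022E.L2c.Tan
import Vale.Agent.P022E.L2b.Shell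
import Vale.Agent.P022E.Loc2.Uni

namespace Vale.Agent.P022E.L2c
export Vale.Agent.P022D.L2c (
  two2_of cases_of)
end Vale.Agent.P022E.L2c
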