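import Vale.Agent.P022D.L2c.Herb6
import Vale.Agent.P022E.L2c.Defs

namespace Vale.Agent.P022E.L2c.Hq
export Vale.Agent.P022D.L2c.Hq (
  avg oddc ex1 tw mem_tw Q_tw fin0 st_tw iso extend Q_bot rk st_tor step st_sup mem_tor Q
  fin1)
end Vale.Agent.P022E.L2c.Hq

namespace Vale.Agent.P022E.L2c
export Vale.Agent.P022D.L2c (
  herb6)
end Vale.Agent.P022E.L2c
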